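import Vale.Agent.P014.Defs
import Vale.Agent.P179W.PtRed
import Vale.Agent.P022D.Loc2.Dec
import Vale.Agent.P004S.Bas3

/-! # P014T: local triviality at a finite prime in terms of a decomposition group -/

set_option linter.all false

open WeierstrassCurve WeierstrassCurve.Affine Polynomial NumberField Filter
open scoped Classical NNReal

noncomputable section

namespace Vale.Agent.P014T.Sh.Lp

section alg

variable {F : Type} [Field F] {W : WeierstrassCurve F} {x y : F}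

/-- the two-division polynomial -/
def ps (W : WeierstrassCurve F) (x : F) : F := 4 * x ^ 3 + W.b₂ * x ^ 2 + 2 * W.b₄ * x + W.b₆

/-- the numerator of the duplication formula -/
def ph (W : WeierstrassCurve F) (x : F) : F := x ^ 4 - W.b₄ * x ^ 2 - 2 * W.b₆ * x - W.b₈

theorem ps_eq (h : W.toAffine.Equation x y) : (2 * y + W.a₁ * x + W.a₃) ^ 2 = ps W x := by
  rw [equation_iff] at h
  simp only [ps, b₂, b₄, b₆]
  linear_combination 4 * h

theorem eqn [CharZero F] {s : F} (h : s ^ 2 = ps W x) :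
    W.toAffine.Equation x ((s - W.a₁ * x - W.a₃) / 2) := by
  rw [equation_iff]
  simp only [ps, b₂, b₄, b₆] at h
  linear_combination h / 4

theorem dbl (h : W.toAffine.Nonsingular x y) :
    ps W x = 0 ∧ 2 • Point.some x y h = 0 ∨ ps W x ≠ 0 ∧
      ∃ X Y h', 2 • Point.some x y h = .some X Y h' ∧ X * ps W x = ph W x := by
  have e : y - W.toAffine.negY x y = 2 * y + W.a₁ * x + W.a₃ := by rw [negY]; ring
  rw [two_nsmul, ← ps_eq h.1, ← e]
  by_cases k : y = W.toAffine.negY x y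
  · exact .inl ⟨by rw [sub_eq_zero.2 k]; simp, Point.add_self_of_Y_eq k⟩
  refine .inr ⟨pow_ne_zero _ (sub_ne_zero.2 k), _, _, _, Point.add_self_of_Y_ne k, ?_⟩
  obtain ⟨l, n, z, hl, hz, hy, -, -, s1, s2, s3⟩ := P179W.line_rel h.1 h.1 fun c => k c.2
  rw [← hl, ← hz, e, hy, ph, b₄, b₆, b₈,
    show W.a₂ = l ^ 2 + W.a₁ * l - (x + x + z) by linear_combination s1,
    show W.a₄ = x * x + x * z + x * z + 2 * l * n + W.a₁ * n + W.a₃ * l by linear_combination -s2,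
    show W.a₆ = n ^ 2 + W.a₃ * n - x * x * z by linear_combination s3]
  ring

/-- a polynomial of degree at most four -/
def q4 (a b c d e : F) : F[X] := C a * X ^ 4 + C b * X ^ 3 + C c * X ^ 2 + C d * X + C e

theorem q4_ne {a b c d e : F} (h : a ≠ 0 ∨ b ≠ 0 ∨ c ≠ 0) : q4 a b c d e ≠ 0 := fun k => by
  have k4 := congrArg (coeff · 4) k
  have k3 := congrArg (coeff · 3) k
  have k2 := congrArg (coeff · 2) k
  simp [q4, coeff_X, coeff_C] at k4 k3 k2
  tauto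

theorem alg4 {L : Type} [Field L] [IsAlgClosed F] (ι : F →+* L) {a b c d e : F}
    (h : a ≠ 0 ∨ b ≠ 0 ∨ c ≠ 0) {z : L}
    (k : ι a * z ^ 4 + ι b * z ^ 3 + ι c * z ^ 2 + ι d * z + ι e = 0) : ∃ w, ι w = z :=
  (IsAlgClosed.splits (q4 a b c d e)).mem_range_of_isRoot (q4_ne h) (by simpa [q4] using k)

end alg

section nrm

variable {F : Type} [NormedField F] [IsUltrametricDist F] {W : WeierstrassCurve F} {u : F}

/-- the points near the origin -/
def Nr (r : ℝ) : W.toAffine.Point → Prop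
  | .zero => True
  | .some x _ _ => r < ‖x‖

/-- `u` is large -/
structure Lg (W : WeierstrassCurve F) (u : F) : Prop where
  u0 : u ≠ 0
  cf : P179W.CoeffIn (⟨W.a₁ / u, W.a₂ / u ^ 2, W.a₃ / u ^ 3, W.a₄ / u ^ 4, W.a₆ / u ^ 6⟩ :
    WeierstrassCurve F) {z | NormedField.valuation z ≤ 1}
  tf : ∀ x, ps W x = 0 → ‖x‖ ≤ ‖u‖ ^ 2

theorem Nr.neg {r : ℝ} {P : W.toAffine.Point} (h : Nr r P) : Nr r (-P) := by
  rcases P with _ | ⟨x, y, h⟩ <;> exact h

theorem Lg.add (h : Lg W u) {P Q : W.toAffine.Point} (hP : Nr (‖u‖ ^ 2) P) (hQ : Nr (‖u‖ ^ 2) Q) :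
    Nr (‖u‖ ^ 2) (P + Q) := by
  rcases P with _ | ⟨x₁, y₁, h₁⟩
  · exact (zero_add Q).symm ▸ hQ
  rcases Q with _ | ⟨x₂, y₂, h₂⟩
  · exact hP
  by_cases hxy : x₁ = x₂ ∧ y₁ = W.toAffine.negY x₂ y₂
  · rw [Point.add_of_Y_eq hxy.1 hxy.2]; trivial
  rw [Point.add_some hxy]
  obtain ⟨l, n, x₃, hl, hx₃, -, -, -, s1, s2, s3⟩ := P179W.line_rel h₁.1 h₂.1 hxy
  show _ < ‖_‖
  have u0 := h.u0
  have k : ∀ x : F, ‖u‖ ^ 2 < ‖x‖ ↔ 1 < NormedField.valuation (x / u ^ 2) := fun x => by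
    rw [← NNReal.coe_lt_coe, NormedField.valuation_apply, coe_nnnorm, norm_div, norm_pow,
      NNReal.coe_one, one_lt_div (by positivity)]
  rw [← hl, ← hx₃, k, ← not_le]
  rcases le_total (NormedField.valuation (x₂ / u ^ 2)) (NormedField.valuation (x₁ / u ^ 2)) with c | c
  · exact P179W.ker_aux h.cf (l := l / u) (n := n / u ^ 3) (by field_simp; linear_combination s1)
      (by field_simp; linear_combination s2) (by field_simp; linear_combination s3) ((k _).1 hQ) c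
  · exact P179W.ker_aux h.cf (l := l / u) (n := n / u ^ 3) (by field_simp; linear_combination s1)
      (by field_simp; linear_combination s2) (by field_simp; linear_combination s3) ((k _).1 hP) c

theorem Lg.tors (h : Lg W u) {P : W.toAffine.Point} (hP : Nr (‖u‖ ^ 2) P) (e : 2 • P = 0) :
    P = 0 := by
  rcases P with _ | ⟨x, y, k⟩
  · rfl
  rcases dbl k with c | ⟨-, X, Y, h', c, -⟩
  · exact absurd hP (h.tf x c.1).not_gt
  · exact absurd (c.symm.trans e) (Point.some_ne_zero _)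

theorem ex_lg [CharZero F] (W : WeierstrassCurve F) {t : F} (ht : 1 < ‖t‖) : ∃ u, Lg W u := by
  obtain ⟨B, hB⟩ := (((q4 0 4 W.b₂ (2 * W.b₄) W.b₆).roots.toFinset.finite_toSet.union
    (Set.toFinite {W.a₁, W.a₂, W.a₃, W.a₄, W.a₆})).image norm).bddAbove
  obtain ⟨n, hn⟩ := pow_unbounded_of_one_lt B ht
  have o : 1 ≤ ‖t ^ n‖ := by rw [norm_pow]; exact one_le_pow₀ ht.le
  have k : ∀ {a : F} (i : ℕ), ‖a‖ ≤ B → ‖a‖ ≤ ‖t ^ n‖ ^ (i + 1) := fun i c =>
    c.trans ((hn.le.trans_eq (norm_pow t n).symm).trans (le_self_pow₀ o i.succ_ne_zero))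
  have k' : ∀ {a : F} (i : ℕ), a ∈ ({W.a₁, W.a₂, W.a₃, W.a₄, W.a₆} : Set F) →
      NormedField.valuation (a / (t ^ n) ^ (i + 1)) ≤ 1 := fun i c => by
    rw [← NNReal.coe_le_coe, NormedField.valuation_apply, coe_nnnorm, norm_div, norm_pow]
    exact div_le_one_of_le₀ (k i (hB ⟨_, .inr c, rfl⟩)) (by positivity)
  refine ⟨t ^ n, norm_pos_iff.1 (one_pos.trans_le o), ⟨by simpa using k' 0 (a := W.a₁) (by simp),
    k' 1 (by simp), k' 2 (by simp), k' 3 (by simp), k' 5 (by simp)⟩,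
    fun x c => k 1 (hB ⟨x, .inl ?_, rfl⟩)⟩
  rw [Finset.mem_coe, Multiset.mem_toFinset, mem_roots (q4_ne (by simp))]
  simpa [q4, ps] using c

theorem big [IsAlgClosed F] {b : F} (c d e : F) (h : b ≠ 0) :
    ∃ x, x ^ 4 + b * x ^ 3 + c * x ^ 2 + d * x + e = 0 ∧ ‖b‖ ≤ ‖x‖ := by
  by_contra! k
  have m : (q4 1 b c d e).Monic := by unfold q4; monicity!
  have n : (q4 1 b c d e).natDegree = 4 := by unfold q4; compute_degree!
  have s := (IsAlgClosed.splits _).nextCoeff_eq_neg_sum_roots_of_monic m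
  rw [nextCoeff_of_natDegree_pos (by omega), n] at s
  have : ‖(q4 1 b c d e).roots.sum‖ < ‖b‖ :=
    Multiset.sum_induction (fun a => ‖a‖ < ‖b‖) _
      (fun _ _ a a' => (IsUltrametricDist.norm_add_le_max _ _).trans_lt (max_lt a a'))
      (by simpa using h) fun a ha => k a (by simpa [q4] using isRoot_of_mem_roots ha)
  rw [← norm_neg, ← s] at this
  simp [q4, coeff_X, coeff_C] at this

/-- points near the origin have a half near the origin -/
theorem Lg.half [IsAlgClosed F] [CharZero F] [W.IsElliptic] (h : Lg W u) {X Y : F}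
    (k : W.toAffine.Nonsingular X Y) (hX : ‖u‖ ^ 2 < ‖4 * X‖) :
    ∃ U, Nr (‖u‖ ^ 2) U ∧ 2 • U = .some X Y k := by
  obtain ⟨x, e, b⟩ := big (b := -(4 * X)) (-W.b₄ - X * W.b₂) (-2 * W.b₆ - 2 * X * W.b₄)
    (-W.b₈ - X * W.b₆) (neg_ne_zero.2 (norm_pos_iff.1 (lt_of_le_of_lt (by positivity) hX)))
  rw [norm_neg] at b
  obtain ⟨s, hs⟩ := IsAlgClosed.exists_pow_nat_eq (ps W x) two_pos
  have n := equation_iff_nonsingular.1 (eqn hs)
  rcases dbl n with c | ⟨c, X', Y', h', c', e'⟩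
  · exact absurd (hX.trans_le b) (h.tf x c.1).not_gt
  have : X' = X := mul_right_cancel₀ c (by rw [e', ph, ps]; linear_combination e)
  rcases (Point.X_eq_iff (h₁ := h') (h₂ := k)).1 this with d | d
  · exact ⟨.some _ _ n, hX.trans_le b, c'.trans d⟩
  · exact ⟨-_, Nr.neg (P := .some _ _ n) (hX.trans_le b), by rw [smul_neg, c', d, neg_neg]⟩

/-- approximation of a point -/
theorem near [IsAlgClosed F] [CharZero F] [W.IsElliptic] {x y : F} (h : W.toAffine.Nonsingular x y)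
    (h0 : ps W x ≠ 0) (B : ℝ) : ∀ᶠ x' in nhds x, x' ≠ x → ∃ s, s ^ 2 = ps W x' ∧
      ‖s - (2 * y + W.a₁ * x + W.a₃)‖ < ‖s + (2 * y + W.a₁ * x + W.a₃)‖ ∧ ∀ h',
      ∃ X Y k, Point.some x' ((s - W.a₁ * x' - W.a₃) / 2) h' - .some x y h = .some X Y k ∧ B < ‖X‖ := by
  have e := ps_eq h.1
  set D := 2 * y + W.a₁ * x + W.a₃ with hD
  have D0 : 0 < ‖D‖ := norm_pos_iff.2 fun c => h0 (by rw [← e, c]; simp)
  have t0 : 0 < ‖(2 : F)‖ := norm_pos_iff.2 two_ne_zero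
  have D2 : 0 < ‖2 * D‖ := by rw [norm_mul]; positivity
  set M := |B| + ‖W.a₁‖ + ‖W.a₂‖ + 2 * ‖x‖ + 2 with hM
  have c1 : Continuous fun z => ‖ps W z - ps W x‖ := by unfold ps; fun_prop
  have c2 : Continuous fun z => ‖W.a₁ * (x - z)‖ := by fun_prop
  have c3 : Continuous fun z => M * ‖z - x‖ := by fun_prop
  filter_upwards [c1.continuousAt.eventually_lt continuousAt_const (g := fun _ => ‖2 * D‖ ^ 2)
      (by simpa using pow_pos D2 2), c2.continuousAt.eventually_lt continuousAt_const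
      (g := fun _ => ‖2 * D‖) (by simpa using D2), c3.continuousAt.eventually_lt continuousAt_const
      (g := fun _ => min ‖D‖ 1) (by simpa using D0)] with z k1 k2 k3 ne
  obtain ⟨s, hs, k⟩ : ∃ s, s ^ 2 = ps W z ∧ ‖s - D‖ < ‖2 * D‖ := by
    obtain ⟨s, hs⟩ := IsAlgClosed.exists_pow_nat_eq (ps W z) two_pos
    by_contra! c
    have := mul_le_mul (c s hs) (c (-s) (by rw [neg_sq, hs])) D2.le (norm_nonneg _)
    rw [← norm_mul (s - D), ← norm_neg (_ * (-s - D)),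
      show -((s - D) * (-s - D)) = ps W z - ps W x by linear_combination hs - e, ← sq] at this
    exact this.not_gt k1
  have k4 : ‖s + D‖ = ‖2 * D‖ := by
    rw [show s + D = 2 * D + (s - D) by ring, IsUltrametricDist.norm_add_eq_max_of_norm_ne_norm k.ne',
      max_eq_left k.le]
  refine ⟨s, hs, k4 ▸ k, fun h' => ⟨_, _, _, by rw [sub_eq_add_neg]; exact Point.add_of_X_ne ne, ?_⟩⟩
  rw [slope_of_X_ne ne, addX]
  set l := ((s - W.a₁ * z - W.a₃) / 2 - W.toAffine.negY x y) / (z - x) with hl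
  have z0 : 0 < ‖z - x‖ := norm_pos_iff.2 (sub_ne_zero.2 ne)
  have k5 : ‖l‖ * ‖z - x‖ = ‖D‖ := mul_left_cancel₀ t0.ne' (by
    rw [← norm_mul, ← norm_mul, ← norm_mul, hl, div_mul_cancel₀ _ (sub_ne_zero.2 ne), negY,
      show 2 * ((s - W.a₁ * z - W.a₃) / 2 - (-y - W.a₁ * x - W.a₃)) = s + D + W.a₁ * (x - z) by ring,
      IsUltrametricDist.norm_add_eq_max_of_norm_ne_norm (k4 ▸ k2.ne'), k4, max_eq_left k2.le])
  have k6 : M < ‖l‖ := lt_of_mul_lt_mul_right (k5 ▸ k3.trans_le (min_le_left _ _)) z0.le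
  have k7 : ‖l‖ ^ 2 ≤ ‖l ^ 2 + W.a₁ * l - W.a₂ - z - x‖ + ‖W.a₁‖ * ‖l‖ + ‖W.a₂‖ + ‖z - x‖ +
      ‖x‖ + ‖x‖ := by
    rw [← norm_pow, ← norm_mul]
    conv_lhs => rw [show l ^ 2 = l ^ 2 + W.a₁ * l - W.a₂ - z - x - W.a₁ * l + W.a₂ + (z - x) + x + x
      by ring]
    exact norm_add_le_of_le (norm_add_le_of_le (norm_add_le_of_le (norm_add_le_of_le
      (norm_sub_le _ _) le_rfl) le_rfl) le_rfl) le_rfl
  have := k3.trans_le (min_le_right _ _)
  have := le_abs_self B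
  have := abs_nonneg B
  have := norm_nonneg W.a₁
  have := norm_nonneg W.a₂
  have := norm_nonneg x
  show B < ‖l ^ 2 + W.a₁ * l - W.a₂ - z - x‖
  nlinarith

end nrm

section gal

open Vale.Agent.P014 Vale.Agent.P022D.Loc2
open Vale.Agent.P022 (Qb)
open Vale.Agent.P022D.W (dec)
open Vale.Agent.P022E.GW (Ov)

variable {E : WeierstrassCurve ℚ} {L : Type} [Field L] [Algebra ℚ L] (ι : Qb →ₐ[ℚ] L)

theorem of_x {x y : L} (h : (E⁄L).toAffine.Nonsingular x y) (k : ∃ w, ι w = x) :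
    ∃ Q, Point.map (W' := E) ι Q = .some x y h := by
  obtain ⟨w, rfl⟩ := k
  obtain ⟨v, rfl⟩ := alg4 ι.toRingHom (a := 0) (b := 0) (c := 1) (d := E.a₁ * w + E.a₃)
    (e := -(w ^ 3 + E.a₂ * w ^ 2 + E.a₄ * w + E.a₆)) (by simp) (z := y) (by
      haveI := charZero_of_injective_algebraMap (algebraMap ℚ L).injective
      have e := (equation_iff (W := E.map (algebraMap ℚ L)) ..).1 h.1
      simp at e ⊢
      linear_combination e)
  exact ⟨.some w v ((baseChange_nonsingular (W := E) ι.injective ..).1 h), rfl⟩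

theorem of_ps {x : L} (h : ps (E⁄L) x = 0) : ∃ w, ι w = x := by
  haveI := charZero_of_injective_algebraMap (algebraMap ℚ L).injective
  exact alg4 ι.toRingHom (a := 0) (b := 4) (c := E.b₂) (d := 2 * E.b₄) (e := E.b₆) (by simp) (by
    simpa [ps, WeierstrassCurve.baseChange, map_ofNat] using h)

/-- halves of algebraic points are algebraic -/
theorem of_two {R : (E⁄L).toAffine.Point} (h : ∃ S, Point.map (W' := E) ι S = 2 • R) :
    ∃ Q, Point.map (W' := E) ι Q = R := by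
  rcases R with _ | ⟨x, y, n⟩
  · exact ⟨0, rfl⟩
  refine of_x ι n ?_
  rcases dbl n with c | ⟨-, X, Y, h', c, e⟩
  · exact of_ps ι c.1
  obtain ⟨_ | ⟨a, b, k⟩, h⟩ := h
  · exact absurd (h.trans c).symm (Point.some_ne_zero _)
  obtain rfl : ι a = X := (Point.some.inj (h.trans c)).1
  haveI := charZero_of_injective_algebraMap (algebraMap ℚ L).injective
  exact alg4 ι.toRingHom (a := 1) (b := -(4 * a)) (c := -E.b₄ - a * E.b₂)
    (d := -(2 * E.b₆) - 2 * a * E.b₄) (e := -E.b₈ - a * E.b₆) (by simp) (by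
      simp [ps, ph, WeierstrassCurve.baseChange, map_ofNat] at e ⊢
      linear_combination -e)

theorem of_pow (k : ℕ) {R : (E⁄L).toAffine.Point} (h : ∃ S, Point.map (W' := E) ι S = 2 ^ k • R) :
    ∃ Q, Point.map (W' := E) ι Q = R := by
  induction k with
  | zero => simpa using h
  | succ k ih => exact ih (of_two ι (by rwa [pow_succ', mul_smul] at h))

theorem act_mul (g h : GQ) (Q : Pbar E) : act E (g * h) Q = act E g (act E h Q) := by
  cases Q <;> rfl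

/-- change of the decomposition group -/
theorem cj {c : GQ → Pbar E} (hc : ∀ σ τ, c (σ * τ) = c σ + act E σ (c τ)) {D D' : GQ → Prop}
    (s : GQ) (k : ∀ g, D' g → D (s⁻¹ * g * s)) (h : ∃ Q, ∀ g, D g → c g = act E g Q - Q) :
    ∃ Q, ∀ g, D' g → c g = act E g Q - Q := by
  obtain ⟨Q, h⟩ := h
  refine ⟨act E s Q - c s, fun g a => ?_⟩
  have e := hc s (s⁻¹ * g * s)
  rw [h _ (k g a), map_sub, ← act_mul, ← mul_assoc, mul_inv_cancel_left, hc, act_mul] at e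
  rw [map_sub, eq_sub_of_add_eq e]
  abel

variable {p : ℕ} [hp : Fact p.Prime]

/-- the action of the local Galois group -/
abbrev tm (E : WeierstrassCurve ℚ) (τ : Gal(PadicAlgCl p / ℚ_[p])) :=
  Point.map (W' := E) (τ : PadicAlgCl p →ₐ[ℚ_[p]] PadicAlgCl p)

theorem mp_act {ι : Qb →ₐ[ℚ] PadicAlgCl p} {τ : Gal(PadicAlgCl p / ℚ_[p])} {σ : GQ}
    (h : ∀ x, ι (σ x) = τ (ι x)) (Q : Pbar E) :
    Point.map (W' := E) ι (act E σ Q) = tm E τ (Point.map (W' := E) ι Q) := by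
  rcases Q with _ | ⟨x, y, n⟩
  · rfl
  · exact (Point.some.injEq ..).mpr ⟨h x, h y⟩

theorem nm (τ : Gal(PadicAlgCl p / ℚ_[p])) (x : PadicAlgCl p) : ‖τ x‖ = ‖x‖ :=
  (spectralNorm_eq_of_equiv τ x).symm

theorem ov_PP : Ov p (PP p) := ⟨hp.out, PP_prime p, p_mem_PP p⟩

theorem ex_s (ι : Qb →ₐ[ℚ] PadicAlgCl p) : ∃ s : GQ, ∀ x, io p (s x) = ι x := by
  have := galQ
  let _ : Algebra Qb (PadicAlgCl p) := (io p).toRingHom.toAlgebra
  have : IsScalarTower ℚ Qb (PadicAlgCl p) :=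
    IsScalarTower.of_algebraMap_eq fun x => ((io p).commutes x).symm
  exact ⟨ι.restrictNormal' Qb, fun x => ι.restrictNormal_commutes Qb x⟩

variable [E.IsElliptic]

/-- **density**: local points are algebraic modulo two -/
theorem base {T : (E⁄(PadicAlgCl p)).toAffine.Point} (hT : ∀ τ, tm E τ T = T) :
    ∃ S T', (∀ τ, tm E τ T' = T') ∧ T = Point.map (W' := E) (io p) S + 2 • T' := by
  by_cases hr : ∃ S, Point.map (W' := E) (io p) S = T
  · exact hr.imp fun S h => ⟨0, fun _ => rfl, by simp [h]⟩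
  rcases T with _ | ⟨x, y, h⟩
  · exact absurd ⟨0, rfl⟩ hr
  haveI : (E⁄(PadicAlgCl p)).IsElliptic := inferInstanceAs (E.map _).IsElliptic
  have hx : ¬ ∃ w, io p w = x := fun k => hr (of_x _ h k)
  have fx := fun τ => Point.some.inj (hT τ)
  obtain ⟨a, ha⟩ := (InfiniteGalois.mem_range_algebraMap_iff_fixed (k := ℚ_[p]) x).2
    fun τ => (fx τ).1
  obtain ⟨u, hu⟩ := ex_lg (E⁄(PadicAlgCl p)) (t := (p : PadicAlgCl p)⁻¹) (by
    rw [norm_inv, norm_p, inv_inv]; exact_mod_cast hp.out.one_lt)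
  obtain ⟨ε, ε0, H⟩ := Metric.eventually_nhds_iff.1
    (near h (fun c => hx (of_ps _ c)) (‖u‖ ^ 2 / ‖(4 : PadicAlgCl p)‖))
  obtain ⟨q, hq⟩ := Padic.rat_dense p a ε0
  obtain ⟨s, hs, lt, H⟩ := H (y := q) (by
    rw [dist_comm, dist_eq_norm, ← ha, ← map_ratCast (algebraMap ℚ_[p] (PadicAlgCl p)), ← map_sub]
    exact (PadicAlgCl.norm_extends p _).trans_lt hq) fun c => hx ⟨q, by simpa using c⟩
  have n := equation_iff_nonsingular.1 (eqn hs)
  obtain ⟨X, Y, k, e, b⟩ := H n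
  obtain ⟨U, u1, u2⟩ := hu.half k (by
    rwa [norm_mul, mul_comm, ← div_lt_iff₀ (norm_pos_iff.2 (by norm_num))])
  obtain ⟨S, hS⟩ := of_x (io p) n ⟨q, by simp⟩
  refine ⟨S, -U, fun τ => ?_, by rw [hS, smul_neg, u2, ← e, ← sub_eq_add_neg, sub_sub_cancel]⟩
  have fs : τ s = s := (sq_eq_sq_iff_eq_or_eq_neg.1 (show τ s ^ 2 = s ^ 2 by
    rw [← map_pow, hs]; simp [ps, WeierstrassCurve.baseChange, map_ofNat])).resolve_right fun c => by
      rw [← nm τ, map_sub, c, ← norm_neg] at lt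
      have f1 : τ x = x := (fx τ).1
      have f2 : τ y = y := (fx τ).2
      simp [WeierstrassCurve.baseChange, map_ofNat, f1, f2, add_comm] at lt
  rw [map_neg, neg_inj, ← sub_eq_zero, sub_eq_add_neg]
  refine hu.tors (hu.add ?_ u1.neg) ?_
  · rcases U with _ | ⟨x, y, h⟩
    · trivial
    · exact lt_of_lt_of_eq u1 (nm τ x).symm
  · rw [smul_add, smul_neg, ← map_nsmul, u2, ← e, map_sub, hT, add_neg_eq_zero]
    refine congrArg (· - _) ((Point.some.injEq ..).mpr ⟨by simp, ?_⟩)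
    simp [WeierstrassCurve.baseChange, map_ofNat, fs]

theorem iter (k : ℕ) {T : (E⁄(PadicAlgCl p)).toAffine.Point} (hT : ∀ τ, tm E τ T = T) :
    ∃ S T', (∀ τ, tm E τ T' = T') ∧ T = Point.map (W' := E) (io p) S + 2 ^ k • T' := by
  induction k with
  | zero => exact ⟨0, T, hT, by simp⟩
  | succ k ih =>
    obtain ⟨S, T', a, rfl⟩ := ih
    obtain ⟨S', T'', b, rfl⟩ := base a
    exact ⟨S + 2 ^ k • S', T'', b, by rw [map_add, map_nsmul, smul_add, pow_succ, mul_smul, add_assoc]⟩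

omit [E.IsElliptic] in
theorem lt_iff {c : GQ → Pbar E} : LocallyTrivial E ℚ_[p] c ↔ ∀ ι : Qb →ₐ[ℚ] PadicAlgCl p,
    ∃ R, ∀ τ σ, (∀ x, ι (σ x) = τ (ι x)) → Point.map (W' := E) ι (c σ) = tm E τ R - R := Iff.rfl

/-- **local triviality at `p`** -/
theorem loc_iff {P : Ideal (𝓞 Qb)} (o : Ov p P) {c : GQ → Pbar E}
    (hc : ∀ σ τ, c (σ * τ) = c σ + act E σ (c τ)) {k : ℕ} (h2 : ∀ g, 2 ^ k • c g = 0) :
    LocallyTrivial E ℚ_[p] c ↔ ∃ Q : Pbar E, ∀ g ∈ dec P, c g = act E g Q - Q := by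
  rw [lt_iff]
  refine ⟨fun H => ?_, fun H ι => ?_⟩
  · obtain ⟨t, -, ht⟩ := P004S.ex_conj ov_PP o
    refine cj hc t ht ?_
    obtain ⟨R, hR⟩ := H (io p)
    have hR := fun τ => hR τ _ (io_jj p τ)
    obtain ⟨S, T, a, b⟩ := iter k (T := 2 ^ k • R) fun τ => by
      rw [map_nsmul, ← sub_eq_zero, ← smul_sub, ← hR, ← map_nsmul, h2, map_zero]
    obtain ⟨Q, hQ⟩ := of_pow (io p) k (R := R - T) ⟨S, by rw [smul_sub, b, add_sub_cancel_right]⟩
    refine ⟨Q, fun g hg => ?_⟩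
    obtain ⟨τ, rfl⟩ := (range_jj p g).1 hg
    apply Point.map_injective (W' := E) (io p)
    rw [hR, map_sub, mp_act (io_jj p τ), hQ, map_sub, a, sub_sub_sub_cancel_right]
  · obtain ⟨t, -, ht⟩ := P004S.ex_conj o ov_PP
    obtain ⟨s, hs⟩ := ex_s ι
    obtain ⟨Q, hQ⟩ := cj hc (D' := fun g => s * g * s⁻¹ ∈ dec (PP p)) s⁻¹
      (fun g a => by rwa [inv_inv]) (cj hc t ht H)
    refine ⟨Point.map (W' := E) ι Q, fun τ σ h => ?_⟩
    rw [hQ σ ((range_jj p _).2 ⟨τ, AlgEquiv.ext fun x => io_inj p ?_⟩), map_sub, mp_act h]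
    rw [io_jj, AlgEquiv.mul_apply, AlgEquiv.mul_apply, hs, h, ← hs, ← AlgEquiv.mul_apply,
      mul_inv_cancel, AlgEquiv.one_apply]

end gal

end Vale.Agent.P014T.Sh.Lp
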