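import Vale.Agent.P014T.Sh.Two
import Vale.Agent.P014T.Sh.Lp
import Vale.Agent.P004M.TE.Tate

/-!
# P014 T: the real place and the good primes
-/

set_option linter.all false

open WeierstrassCurve NumberField
open scoped Classical

noncomputable section

namespace Vale.Agent.P014T.Sh

open Vale.Agent.P022 (Qb GQ IsConj)
open Vale.Agent.P027M.S (Inert)
open Vale.Agent.P022D.W (dec dec_gen exists_phi)
open Vale.Agent.P022E.GW (Ov)
open P004M.TE (Pt ga ga_mul ga_one ev_ga exists_rd inj_tors frob_ch char_ne disc_ne cs_le cs)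

section real

open Vale.Agent.P014 (Pbar act LocallyTrivial)

variable {E : WeierstrassCurve ℚ}

/-- the algebraic closure of the real numbers -/
abbrev Rb : Type := AlgebraicClosure ℝ

/-- the comparison with the complex numbers -/
def rc : Rb ≃ₐ[ℝ] ℂ :=
  haveI : IsAlgClosure ℝ ℂ := ⟨inferInstance, inferInstance⟩
  IsAlgClosure.equiv ℝ Rb ℂ

/-- the action of the local Galois group -/
abbrev tm (E : WeierstrassCurve ℚ) (τ : Rb ≃ₐ[ℝ] Rb) : Pn E Rb →+ Pn E Rb :=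
  Affine.Point.map (W' := E) (τ : Rb →ₐ[ℝ] Rb)

theorem lt_iff {x : GQ → Pbar E} : LocallyTrivial E ℝ x ↔ ∀ ι : Qb →ₐ[ℚ] Rb,
    ∃ R, ∀ τ σ, (∀ y, ι (σ y) = τ (ι y)) → mp E ι (x σ) = tm E τ R - R := Iff.rfl

theorem mp_act {ι : Qb →ₐ[ℚ] Rb} {τ : Rb ≃ₐ[ℝ] Rb} {σ : GQ} (h : ∀ x, ι (σ x) = τ (ι x))
    (Q : Pbar E) : mp E ι (act E σ Q) = tm E τ (mp E ι Q) := by
  rcases Q with _ | ⟨x, y, n⟩
  · rfl
  · exact (Affine.Point.some.injEq ..).mpr ⟨h x, h y⟩

/-- **local triviality at the real place** -/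
theorem re_of {c : GQ} (hc : IsConj c) {x : GQ → Pbar E}
    (hx : ∀ σ τ, x (σ * τ) = x σ + act E σ (x τ)) (h : ∃ Q, x c = act E c Q - Q) :
    LocallyTrivial E ℝ x := lt_iff.2 fun ι => by
  obtain ⟨φ, hφ⟩ := hc
  have := P022D.Loc2.galQ
  obtain ⟨s, hs⟩ := ComplexEmbedding.exists_comp_symm_eq_of_comp_eq (k := ℚ) φ
    ((rc : Rb →+* ℂ).comp ι) (Subsingleton.elim _ _)
  have hs : ∀ y, φ (s.symm y) = rc (ι y) := fun y => congrArg (· y) hs
  obtain ⟨Q, hQ⟩ := Lp.cj hx (D := fun g => g = c ∨ g = 1) (D' := fun g => s⁻¹ * g * s = c ∨ g = 1) s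
    (fun g a => a.imp id fun a => by rw [a, mul_one, inv_mul_cancel]) (h.imp fun Q a g b => by
      rcases b with rfl | rfl
      · exact a
      · rw [show act E 1 Q = Q by cases Q <;> rfl, sub_self]
        exact left_eq_add.1 ((congrArg x (mul_one 1).symm).trans ((hx 1 1).trans
          (congrArg _ (by cases x 1 <;> rfl)))))
  refine ⟨mp E ι Q, fun τ σ k => ?_⟩
  rw [← mp_act k, ← map_sub, ← hQ σ]
  refine (Complex.real_algHom_eq_id_or_conj ((rc.symm.trans τ).trans rc : ℂ →ₐ[ℝ] ℂ)).symm.imp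
    (fun a => AlgEquiv.ext fun y => φ.injective ?_) fun a => AlgEquiv.ext fun y => ι.injective ?_
  · have := congrArg (· (rc (ι (s y)))) a
    rw [hφ, ← s.symm_apply_apply y, hs]
    simpa [← k, hs, AlgEquiv.aut_inv] using this
  · have := congrArg (· (rc (ι y))) a
    simpa [← k] using this

variable [E.IsElliptic]

theorem of_re {c : GQ} (hc : IsConj c) {x : GQ → Pbar E} {k : ℕ} (h2 : 2 ^ k • x c = 0)
    (h : LocallyTrivial E ℝ x) : ∃ a, 2 ^ (k + 1) • a = 0 ∧ x c = act E c a - a := by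
  obtain ⟨φ, hφ⟩ := hc
  let ι : Qb →ₐ[ℚ] Rb := ((rc.symm : ℂ →+* Rb).comp φ).toRatAlgHom
  let τ := (rc.trans Complex.conjAe).trans rc.symm
  have k1 : ∀ y, ι (c y) = τ (ι y) := fun y => by simp [ι, τ, hφ]
  obtain ⟨R, hR⟩ := lt_iff.1 h ι
  have hR := hR τ c k1
  set t := tm E τ with ht
  have tt : ∀ S, t (t S) = S := by
    rintro (_ | ⟨x, y, n⟩)
    · rfl
    · exact (Affine.Point.some.injEq ..).mpr ⟨by simp [τ], by simp [τ]⟩
  obtain ⟨S, hS⟩ := half_pow (k + 1) (2 ^ k • R)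
  have e : 2 ^ (k + 1) • (R - (S + t S)) = 0 := by
    have := congrArg (mp E ι) h2
    rw [map_nsmul, hR, smul_sub, map_zero, sub_eq_zero] at this
    rw [smul_sub, smul_add, ← map_nsmul, hS, map_nsmul, this, pow_succ', mul_smul, two_nsmul, sub_self]
  obtain ⟨a, ha⟩ := alg ι (k := k + 1) (R := R - (S + t S)) (e ▸ zero_mem _)
  refine ⟨a, ?_, ?_⟩ <;> apply Affine.Point.map_injective (W' := E) ι
  · rw [map_nsmul, ha, e, map_zero]
  · rw [hR, map_sub, mp_act k1, ha, ← ht, map_sub, map_add, tt]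
    abel

end real

variable {A B : ℤ} {l k : ℕ} {P : Ideal (𝓞 Qb)}

/-- cocycles -/
def Coc (x : GQ → Pt A B) : Prop := ∀ g h, x (g * h) = x g + ga g (x h)

theorem Coc.one {x : GQ → Pt A B} (h : Coc x) : x 1 = 0 :=
  left_eq_add.1 ((congrArg x (mul_one 1).symm).trans ((h 1 1).trans (congrArg _ (ga_one _))))

/-- the locus where a cocycle agrees with a coboundary -/
def Coc.eqz {x : GQ → Pt A B} (hx : Coc x) (Q : Pt A B) : Subgroup GQ where
  carrier := {g | x g = ga g Q - Q}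
  one_mem' := hx.one.trans (by rw [ga_one, sub_self])
  mul_mem' {g h} a b := by
    show _ = _
    rw [hx, a, b, map_sub, ga_mul]
    abel
  inv_mem' {g} a := by
    have := hx g⁻¹ g
    rw [inv_mul_cancel, hx.one, a, map_sub, ← ga_mul, inv_mul_cancel, ga_one] at this
    exact (eq_neg_of_add_eq_zero_left this.symm).trans (neg_sub _ _)

theorem Coc.eqz_open {x : GQ → Pt A B} (hx : Coc x) (lc : IsLocallyConstant x) (Q : Pt A B) :
    IsOpen (hx.eqz Q : Set GQ) := Subgroup.isOpen_of_mem_nhds _ (g := 1)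
  (((lc.eventually_eq 1).and (ev_ga 1 Q)).mono fun g a => by
    show _ = _
    rw [a.1, a.2, hx.one, ga_one, sub_self])

/-- change of the decomposition group -/
theorem Coc.cj {x : GQ → Pt A B} (hx : Coc x) (o : Ov l P) {P' : Ideal (𝓞 Qb)} (o' : Ov l P')
    (h : ∃ Q, ∀ g ∈ dec P, x g = ga g Q - Q) : ∃ Q, ∀ g ∈ dec P', x g = ga g Q - Q := by
  obtain ⟨s, -, k⟩ := P004S.ex_conj o o'
  obtain ⟨Q, h⟩ := h
  refine ⟨ga s Q - x s, fun g a => ?_⟩
  have e := hx s (s⁻¹ * g * s)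
  rw [h _ (k g a), map_sub, ← ga_mul, ← mul_assoc, mul_inv_cancel_left, hx, ga_mul] at e
  rw [map_sub, eq_sub_of_add_eq e]
  abel

theorem div {M : Type} [AddCommGroup M] (hD : ∀ y : M, ∃ z, 2 • z = y) {n : ℕ} (hn : n ≠ 0) {y : M}
    (hy : 2 ^ k • y = 0) : ∃ j b, 2 ^ j • b = 0 ∧ n • b = y := by
  obtain ⟨e, m, om, rfl⟩ := Nat.exists_eq_two_pow_mul_odd hn
  induction e with
  | zero =>
    obtain ⟨u, v, e⟩ : IsCoprime (m : ℤ) (2 ^ k : ℕ) :=
      Nat.isCoprime_iff_coprime.2 ((Nat.coprime_two_right.2 om).pow_right k)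
    refine ⟨k, u • y, by rw [smul_comm, hy, smul_zero], ?_⟩
    rw [pow_zero, one_mul, ← natCast_zsmul, ← mul_smul, mul_comm, eq_sub_of_add_eq e, sub_smul,
      mul_smul, natCast_zsmul, hy, smul_zero, sub_zero, one_smul]
  | succ e i =>
    obtain ⟨j, b, h, rfl⟩ := i (by have := om.pos; positivity)
    obtain ⟨b, rfl⟩ := hD b
    exact ⟨j + 1, b, by rwa [pow_succ, mul_smul], by rw [← mul_smul, pow_succ, mul_right_comm]⟩

theorem slv {M : Type} [AddCommGroup M] (F : M →+ M) {s l : ℤ} {n : ℕ} {b : M} (hn : l + 1 + s = n)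
    (hb : 2 ^ k • b = 0) : 2 ^ k • (F (F b) + s • F b + l • b) = 0 ∧ ∃ Q, 2 ^ k • Q = 0 ∧
      (F (F b) + s • F b + l • b = 0 → n • b = F Q - Q) := by
  refine ⟨?_, -(F b + (1 + s) • b), ?_, fun e => ?_⟩
  · simp [smul_comm (2 ^ k), ← map_nsmul, hb]
  · simp [smul_comm (2 ^ k), ← map_nsmul, hb]
  · rw [← natCast_zsmul, ← hn, map_neg, map_add, map_zsmul, ← sub_eq_zero, ← e]
    module

variable (hg : ¬ (l : ℤ) ∣ 2 * (4 * A ^ 3 + 27 * B ^ 2)) (o : Ov l P)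
include hg o

/-- **Kummer classes are unramified at the good primes** -/
theorem ur1 {g : GQ} (hi : Inert P g) {Q : Pt A B} (h : 2 ^ k • (ga g Q - Q) = 0) : ga g Q = Q := by
  have : Fact l.Prime := ⟨o.1⟩
  obtain ⟨κ, _, _, _, rd, h1, h2, -⟩ := exists_rd hg o.2.1 o.2.2
  exact sub_eq_zero.1 (inj_tors h1 k h (by rw [map_sub, h2 g hi, sub_self]))

/-- **unramified classes are locally trivial at the good primes** -/
theorem ur0 {x : GQ → Pt A B} (hx : Coc x) (lc : IsLocallyConstant x) (h2 : ∀ g, 2 ^ k • x g = 0)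
    (ur : ∀ g, Inert P g → x g = 0) : ∃ j Q, 2 ^ j • Q = 0 ∧ ∀ g ∈ dec P, x g = ga g Q - Q := by
  have : Fact l.Prime := ⟨o.1⟩
  obtain ⟨σ, hσ⟩ := exists_phi o.1 o.2.1 o.2.2
  obtain ⟨κ, _, _, _, rd, h1, -, h3⟩ := exists_rd hg o.2.1 o.2.2
  have hH := cs_le hg
  have h4 : (2 : ℤ) ≤ l := by exact_mod_cast o.1.two_le
  set s := cs (A : ZMod l) (B : ZMod l) with hs
  obtain ⟨n, hn⟩ := Int.eq_ofNat_of_zero_le (show 0 ≤ l + 1 + s by nlinarith)
  have hD : 4 * A ^ 3 + 27 * B ^ 2 ≠ 0 := fun e => hg (by simp [e])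
  obtain ⟨j, b, hb, e⟩ := div (P004M.TE.dbl_surj two_ne_zero (by exact_mod_cast hD)) (n := n) (by
    rintro rfl
    rw [show s = -(l + 1) by push_cast at hn; linarith] at hH
    nlinarith) (h2 σ)
  obtain ⟨t, Q, tq, ch⟩ := slv (ga σ) hn hb
  have ch := ch (inj_tors h1 j t (by
    have := frob_ch (char_ne hg) (disc_ne hg) (rd b)
    rw [ZMod.card] at this
    simpa only [map_add, map_zsmul, h3 σ hσ] using this))
  refine ⟨j, Q, tq, fun g hg' => ?_⟩
  obtain ⟨m, i, u, hi, hu, rfl⟩ := dec_gen o.1 o.2.1 o.2.2 hσ hg' _ (hx.eqz_open lc Q)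
  refine mul_mem (mul_mem hu (pow_mem (e.symm.trans ch) m)) (show _ = _ from ?_)
  rw [ur i hi, ur1 hg o hi (k := j), sub_self]
  rw [nsmul_sub, ← map_nsmul, tq, map_zero, sub_zero]

end Vale.Agent.P014T.Sh
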