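import Vale.Agent.P014.Defs

/-!
# P014 T: halving of points, approximation by algebraic points
-/

set_option linter.all false

open WeierstrassCurve Polynomial Filter Topology
open scoped Classical

noncomputable section

namespace Vale.Agent.P014T.Sh

open Vale.Agent.P014 Affine Affine.Point

variable (E : WeierstrassCurve ℚ) {F K : Type} [Field F] [Algebra ℚ F] [Field K] [Algebra ℚ K]

/-- the points over `F` -/
abbrev Pn (F : Type) [Field F] [Algebra ℚ F] : Type := (E⁄F).toAffine.Point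

/-- the map on points -/
abbrev mp (f : F →ₐ[ℚ] K) : Pn E F →+ Pn E K := Affine.Point.map (W' := E) f

/-- the two division polynomial -/
def ps (x : F) : F := 4 * x ^ 3 + algebraMap ℚ F E.b₂ * x ^ 2 + 2 * algebraMap ℚ F E.b₄ * x +
  algebraMap ℚ F E.b₆

/-- the numerator of the duplication formula -/
def ph (x : F) : F := x ^ 4 - algebraMap ℚ F E.b₄ * x ^ 2 - 2 * algebraMap ℚ F E.b₆ * x -
  algebraMap ℚ F E.b₈

variable {E} {x y : F}

theorem map_ps (f : F →ₐ[ℚ] K) (x : F) : f (ps E x) = ps E (f x) := by simp [ps, map_ofNat]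

theorem map_ph (f : F →ₐ[ℚ] K) (x : F) : f (ph E x) = ph E (f x) := by simp [ph, map_ofNat]

theorem ps_eq (h : (E⁄F).toAffine.Equation x y) : ps E x = (y - (E⁄F).toAffine.negY x y) ^ 2 := by
  rw [equation_iff] at h
  simp only [ps, negY, b₂, b₄, b₆, WeierstrassCurve.baseChange, map_a₁, map_a₂, map_a₃, map_a₄, map_a₆, map_add,
    map_mul, map_pow, map_ofNat] at h ⊢
  linear_combination -4 * h

theorem ph_eq (h : (E⁄F).toAffine.Equation x y) : ph E x = (3 * x ^ 2 + 2 * (E⁄F).a₂ * x +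
    (E⁄F).a₄ - (E⁄F).a₁ * y) ^ 2 + (E⁄F).a₁ * (3 * x ^ 2 + 2 * (E⁄F).a₂ * x + (E⁄F).a₄ -
    (E⁄F).a₁ * y) * (y - (E⁄F).toAffine.negY x y) -
    ((E⁄F).a₂ + 2 * x) * (y - (E⁄F).toAffine.negY x y) ^ 2 := by
  rw [equation_iff] at h
  simp only [ph, negY, b₄, b₆, b₈, WeierstrassCurve.baseChange, map_a₁, map_a₂, map_a₃, map_a₄, map_a₆, map_add,
    map_sub, map_mul, map_pow, map_ofNat] at h ⊢
  linear_combination (algebraMap ℚ F E.a₁ ^ 2 + 4 * algebraMap ℚ F E.a₂ + 8 * x) * h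

theorem ps_zero (h : (E⁄F).toAffine.Nonsingular x y) (e : some x y h + some x y h = 0) :
    ps E x = 0 := by
  rw [ps_eq h.1, sub_eq_zero.2 (by_contra fun n => some_ne_zero _ ((add_self_of_Y_ne n).symm.trans e)),
    zero_pow two_ne_zero]

theorem half_of {X Y r : F} (H : (E⁄F).toAffine.Nonsingular X Y) (h : (E⁄F).toAffine.Nonsingular r y)
    (e : X * ps E r = ph E r) : ∃ y h, some r y h + some r y h = some X Y H := by
  have n : y ≠ (E⁄F).toAffine.negY r y := fun k => by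
    rw [ps_eq h.1, ph_eq h.1, ← k] at e
    refine ((nonsingular_iff _ _).1 h).2.elim (fun m => m ?_) fun m => m k
    exact (sub_eq_zero.1 (pow_eq_zero_iff two_ne_zero |>.1 (by linear_combination -e))).symm
  have k := add_self_of_Y_ne (h₁ := h) n
  have m : (E⁄F).toAffine.addX r r ((E⁄F).toAffine.slope r r y y) = X := by
    have := sub_ne_zero.2 n
    rw [ps_eq h.1, ph_eq h.1] at e
    rw [slope_of_Y_ne rfl n, addX]
    field_simp
    linear_combination -e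
  rcases (X_eq_iff (h₂ := H)).1 m with a | a
  · exact ⟨y, h, k.trans a⟩
  · exact ⟨_, (nonsingular_neg _ _).2 h, by rw [← neg_some h, ← neg_add, k, a, neg_neg]⟩

/-- the quartic -/
def qq (E : WeierstrassCurve ℚ) (a : F) : F[X] :=
  X ^ 4 - (C (4 * a) * X ^ 3 + (C (algebraMap ℚ F E.b₄ + a * algebraMap ℚ F E.b₂) * X ^ 2 +
    C (2 * algebraMap ℚ F E.b₆ + a * (2 * algebraMap ℚ F E.b₄)) * X +
      C (algebraMap ℚ F E.b₈ + a * algebraMap ℚ F E.b₆)))

theorem qq_deg (a : F) : (qq E a).natDegree = 4 := by unfold qq; compute_degree!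

theorem qq_mon (a : F) : (qq E a).Monic := by unfold qq; monicity!

theorem qq_next (a : F) : (qq E a).nextCoeff = -(4 * a) := by
  rw [nextCoeff, qq_deg]
  simp [qq, coeff_X, coeff_C, -map_mul, -map_add]

theorem qq_root {a r : F} (h : r ∈ (qq E a).roots) : a * ps E r = ph E r := by
  have := (mem_roots (qq_mon a).ne_zero).1 h
  simp only [IsRoot, qq, eval_sub, eval_add, eval_mul, eval_pow, eval_X, eval_C] at this
  rw [ps, ph]
  linear_combination -this

variable [E.IsElliptic]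

theorem ex_y [IsAlgClosed F] (x : F) : ∃ y, (E⁄F).toAffine.Nonsingular x y := by
  obtain ⟨y, h⟩ := IsAlgClosed.exists_root ((E⁄F).toAffine.polynomial.map (evalRingHom x)) (by
    rw [Affine.monic_polynomial.degree_map, degree_polynomial]; decide)
  have : (E⁄F).toAffine.IsElliptic := inferInstanceAs (E.map _).IsElliptic
  exact ⟨y, equation_iff_nonsingular.1 (by rwa [IsRoot, map_evalRingHom_eval] at h)⟩

theorem card_roots [IsAlgClosed F] (a : F) : (qq E a).roots.card = 4 := by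
  rw [← (IsAlgClosed.splits _).natDegree_eq_card_roots, qq_deg]

/-- points are divisible by two -/
theorem half [IsAlgClosed F] (T : Pn E F) : ∃ S, 2 • S = T := by
  rcases T with _ | ⟨X, Y, H⟩
  · exact ⟨0, smul_zero _⟩
  obtain ⟨r, h⟩ := Multiset.card_pos_iff_exists_mem.1 ((card_roots (E := E) X).symm ▸ four_pos)
  obtain ⟨y, k⟩ := ex_y (E := E) r
  obtain ⟨y, k, e⟩ := half_of H k (qq_root h)
  exact ⟨_, (two_nsmul _).trans e⟩

theorem half_pow [IsAlgClosed F] (k : ℕ) (T : Pn E F) : ∃ S, 2 ^ k • S = T := by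
  induction k with
  | zero => exact ⟨T, one_smul _ _⟩
  | succ k h =>
    obtain ⟨S, rfl⟩ := h
    obtain ⟨S, rfl⟩ := half S
    exact ⟨S, by rw [pow_succ, mul_smul]⟩

variable [IsAlgClosed F] (ι : F →ₐ[ℚ] K) {u v : K}

theorem alg_x (h : (E⁄K).toAffine.Nonsingular u v) (a : u ∈ ι.range) : some u v h ∈ (mp E ι).range := by
  obtain ⟨x, rfl⟩ := a
  obtain ⟨y, k⟩ := ex_y (E := E) x
  rcases (X_eq_iff (h₁ := h) (h₂ := (E.toAffine.baseChange_nonsingular ι.injective ..).2 k)).1 rfl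
    with e | e
  · exact ⟨some x y k, e.symm⟩
  · exact ⟨-some x y k, (map_neg _ _).trans e.symm⟩

theorem alg_ps (h : ps E u = 0) : u ∈ ι.range := by
  have : CharZero F := algebraRat.charZero F
  refine (IsAlgClosed.splits (C 4 * X ^ 3 + C (algebraMap ℚ F E.b₂) * X ^ 2 +
    C (2 * algebraMap ℚ F E.b₄) * X + C (algebraMap ℚ F E.b₆))).mem_range_of_isRoot
    (i := (ι : F →+* K)) (fun e => ?_) (by simpa [map_ofNat, ps] using h)
  simpa [coeff_X, coeff_C, -map_mul] using congrArg (coeff · 3) e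

theorem alg_two {R : Pn E K} (h : 2 • R ∈ (mp E ι).range) : R ∈ (mp E ι).range := by
  obtain ⟨Q, e⟩ := h
  obtain ⟨Q, rfl⟩ := half Q
  have : ∀ S : Pn E K, 2 • S = 0 → S ∈ (mp E ι).range := by
    rintro (_ | ⟨u, v, k⟩) m
    · exact zero_mem _
    · exact alg_x ι k (alg_ps ι (ps_zero k ((two_nsmul _).symm.trans m)))
  simpa using add_mem (this (R - mp E ι Q) (by rw [smul_sub, ← e, map_nsmul, sub_self])) ⟨Q, rfl⟩

theorem alg {k : ℕ} {R : Pn E K} (h : 2 ^ k • R ∈ (mp E ι).range) : R ∈ (mp E ι).range := by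
  induction k generalizing R with
  | zero => rwa [pow_zero, one_smul] at h
  | succ k i => exact alg_two ι (i (by rwa [pow_succ, mul_smul] at h))

section

variable {Ω : Type} [NormedField Ω] [Algebra ℚ Ω] [IsAlgClosed Ω] {Γ : Set (Ω →ₐ[ℚ] Ω)}

variable (Γ) in
/-- fixed points -/
def Fx (R : Pn E Ω) : Prop := ∀ τ ∈ Γ, mp E τ R = R

/-- large roots of the quartic are unique -/
theorem uniq : ∃ ε > 0, ∀ a r r' : Ω, r ≠ 0 → r' ≠ 0 → ‖r⁻¹‖ < ε → ‖r'⁻¹‖ < ε →
    a * ps E r = ph E r → a * ps E r' = ph E r' → r = r' := by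
  have : CharZero Ω := algebraRat.charZero Ω
  generalize hb : algebraMap ℚ Ω E.b₂ = b2
  generalize hc : algebraMap ℚ Ω E.b₄ = b4
  generalize hd : algebraMap ℚ Ω E.b₆ = b6
  generalize he : algebraMap ℚ Ω E.b₈ = b8
  let G : Ω × Ω → Ω := fun z => (1 - b4 * z.2 ^ 2 - 2 * b6 * z.2 ^ 3 - b8 * z.2 ^ 4) *
    (4 + b2 * (z.1 + z.2) + 2 * b4 * (z.1 ^ 2 + z.1 * z.2 + z.2 ^ 2) +
      b6 * (z.1 + z.2) * (z.1 ^ 2 + z.2 ^ 2)) +
    (b4 * (z.1 + z.2) + 2 * b6 * (z.1 ^ 2 + z.1 * z.2 + z.2 ^ 2) +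
      b8 * (z.1 + z.2) * (z.1 ^ 2 + z.2 ^ 2)) *
    (4 * z.2 + b2 * z.2 ^ 2 + 2 * b4 * z.2 ^ 3 + b6 * z.2 ^ 4)
  obtain ⟨ε, e0, h⟩ := Metric.eventually_nhds_iff.1
    ((by fun_prop : Continuous G).continuousAt.eventually_ne (show G 0 ≠ 0 by simp [G]))
  refine ⟨ε, e0, fun a r r' n n' l l' k k' => inv_injective (sub_eq_zero.1
    ((mul_eq_zero.1 ?_).resolve_right
      (h (y := (r⁻¹, r'⁻¹)) (by simpa [Prod.norm_def] using And.intro l l'))))⟩
  simp only [ps, ph, hb, hc, hd, he] at k k'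
  refine mul_left_cancel₀ (mul_ne_zero (pow_ne_zero 4 n) (pow_ne_zero 4 n')) ?_
  simp only [G]
  field_simp
  linear_combination r' ^ 4 * ((4 * r' ^ 3 + b2 * r' ^ 2 + 2 * b4 * r' + b6) * k -
    (4 * r ^ 3 + b2 * r ^ 2 + 2 * b4 * r + b6) * k')

theorem big (a : Ω) : ∃ r, a * ps E r = ph E r ∧ ‖4 * a‖ ≤ 4 * ‖r‖ := by
  by_contra! h
  have e := (IsAlgClosed.splits (qq E a)).nextCoeff_eq_neg_sum_roots_of_monic (qq_mon a)
  rw [qq_next, neg_inj] at e
  have c := card_roots (E := E) a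
  have := Multiset.sum_lt_sum_of_nonempty (s := (qq E a).roots) (fun k => by simp [k] at c)
    (f := fun r => 4 * ‖r‖) (g := fun _ => ‖4 * a‖) fun r k => h r (qq_root k)
  rw [Multiset.sum_map_mul_left, Multiset.map_const', Multiset.sum_replicate, c, e] at this
  have := norm_multiset_sum_le (qq E a).roots
  simp only [nsmul_eq_mul, Nat.cast_ofNat] at *
  linarith

variable (ι : F →ₐ[ℚ] Ω) (iso : ∀ τ ∈ Γ, ∀ x, ‖τ x‖ = ‖x‖)
  (den : ∀ x, (∀ τ ∈ Γ, τ x = x) → x ∈ closure (Set.range (algebraMap ℚ Ω)))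

include iso den

/-- **fixed points are algebraic up to doubles** -/
theorem two {R : Pn E Ω} (h : Fx Γ R) : ∃ Q T, Fx Γ T ∧ R = mp E ι Q + 2 • T := by
  have : CharZero Ω := algebraRat.charZero Ω
  by_contra! N
  have N0 : R ∉ (mp E ι).range := fun ⟨Q, e⟩ => N Q 0 (fun _ _ => rfl) (by simp [e])
  rcases R with _ | ⟨x, y, H⟩
  · exact N0 (zero_mem _)
  have fx := fun τ t => some.inj (h τ t)
  have n1 : ∀ q : ℚ, x ≠ algebraMap ℚ Ω q := fun q e => N0 (alg_x ι H ⟨algebraMap ℚ F q, by simp [e]⟩)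
  set η := y - (E⁄Ω).toAffine.negY x y with hη
  have n2 : η ≠ 0 := fun e => N0 (alg_x ι H (alg_ps ι (by rw [ps_eq H.1, ← hη, e]; simp)))
  have : ∀ z : Ω, ∃ w, (E⁄Ω).toAffine.Nonsingular z w ∧
      ‖w - (E⁄Ω).toAffine.negY z w - η‖ ≤ ‖w - (E⁄Ω).toAffine.negY z w + η‖ := fun z => by
    obtain ⟨w, k⟩ := ex_y (E := E) z
    refine (le_total _ _).elim (fun m => ⟨w, k, m⟩) fun m => ⟨_, (nonsingular_neg _ _).2 k, ?_⟩
    rw [negY_negY, ← norm_neg, ← norm_neg (_ + η)]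
    exact (congrArg _ (by ring)).trans_le (m.trans_eq (congrArg _ (by ring)))
  choose w hw lw using this
  set θ := fun z => w z - (E⁄Ω).toAffine.negY z (w z) with hθ
  have t1 : Tendsto θ (𝓝 x) (𝓝 η) := by
    rw [tendsto_iff_norm_sub_tendsto_zero]
    have : Tendsto (fun z => √‖ps E z - ps E x‖) (𝓝 x) (𝓝 0) :=
      (by unfold ps; fun_prop : Continuous _).tendsto' _ _ (by simp)
    refine squeeze_zero (fun _ => norm_nonneg _) (fun z => Real.le_sqrt_of_sq_le ?_) this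
    rw [ps_eq (hw z).1, ps_eq H.1, sq_sub_sq, norm_mul, sq]
    exact mul_le_mul_of_nonneg_right (lw z) (norm_nonneg _)
  let D := fun z => ((η + θ z) / 2) ^ 2 - (algebraMap ℚ Ω E.b₂ / 4 + x + z) * (x - z) ^ 2
  have t2 : Tendsto D (𝓝 x) (𝓝 (η ^ 2)) := by
    have := (((t1.const_add η).div_const 2).pow 2).sub (((tendsto_id (x := 𝓝 x)).const_add
      (algebraMap ℚ Ω E.b₂ / 4 + x)).mul (((tendsto_id (x := 𝓝 x)).const_sub x).pow 2))
    simpa [D] using this
  have t3 : Tendsto (fun z => 4 * ‖(4 * (D z / (x - z) ^ 2))⁻¹‖) (𝓝 x) (𝓝 0) := by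
    have := (((((tendsto_id (x := 𝓝 x)).const_sub x).pow 2).div t2 (pow_ne_zero 2 n2)).mul_const
      4⁻¹).norm.const_mul 4
    simpa using this
  obtain ⟨ε, e0, u⟩ := uniq (E := E) (Ω := Ω)
  obtain ⟨_, ⟨⟨a1, a2⟩, a3⟩, q, rfl⟩ := mem_closure_iff_nhds.1 (den x fun τ t => (fx τ t).1) _
    (((t3.eventually_lt_const e0).and (t2.eventually_ne (pow_ne_zero 2 n2))).and
      ((tendsto_iff_norm_sub_tendsto_zero.1 t1).eventually_lt_const
        (half_pos (norm_pos_iff.2 (mul_ne_zero two_ne_zero n2)))))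
  set z := algebraMap ℚ Ω q
  have f1 : Fx Γ (some z (w z) (hw z)) := fun τ t => by
    refine ((X_eq_iff (h₂ := hw z)).1 (τ.commutes q)).resolve_right fun e => ?_
    have e := (some.inj e).2
    have k := iso τ t (θ z - η)
    rw [hθ, hη, map_sub, map_sub, map_sub, ← E.toAffine.baseChange_negY, ← E.toAffine.baseChange_negY,
      (fx τ t).1, (fx τ t).2, e, τ.commutes] at k
    have := norm_sub_le (θ z + η) (θ z - η)
    rw [show θ z + η - (θ z - η) = 2 * η by ring, ← norm_neg (θ z + η),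
      show ‖-(θ z + η)‖ = ‖θ z - η‖ from (congrArg _ (by
        simp only [hθ, hη, negY, z]; ring)).trans k] at this
    linarith
  obtain ⟨Q, hQ⟩ := alg_x ι (hw z) ⟨algebraMap ℚ F q, ι.commutes q⟩
  have n0 : x ≠ z := n1 q
  have n4 := sub_ne_zero.2 n0
  have e2 : (E⁄Ω).toAffine.addX x z ((E⁄Ω).toAffine.slope x z y ((E⁄Ω).toAffine.negY z (w z))) =
      D z / (x - z) ^ 2 := by
    rw [slope_of_X_ne n0]
    simp only [D, hθ, hη, addX, negY, b₂, WeierstrassCurve.baseChange, map_a₁, map_a₂, map_a₃,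
      map_add, map_mul, map_pow, map_ofNat]
    field_simp
    ring
  have n3 := mul_ne_zero (by norm_num : (4 : Ω) ≠ 0) (div_ne_zero a2 (pow_ne_zero 2 n4))
  obtain ⟨X, Y, H', e1, eX⟩ : ∃ X Y H', some x y H + some z _ ((nonsingular_neg _ _).2 (hw z)) =
    some X Y H' ∧ X = D z / (x - z) ^ 2 := ⟨_, _, _, add_of_X_ne n0, e2⟩
  rw [← eX] at a1 n3
  rw [← neg_some (hw z), ← sub_eq_add_neg] at e1
  have f2 : Fx Γ (some X Y H') := fun τ t => by rw [← e1, map_sub, h τ t, f1 τ t]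
  obtain ⟨r, r1, r2⟩ := big (E := E) X
  have r3 := norm_pos_iff.2 n3
  have r4 : 0 < ‖r‖ := by linarith
  have r5 : ‖r⁻¹‖ < ε := by
    rw [norm_inv] at a1 ⊢
    refine lt_of_le_of_lt ?_ a1
    rwa [← div_eq_mul_inv, le_div_iff₀ r3, inv_mul_le_iff₀ r4, mul_comm ‖r‖]
  obtain ⟨v, hv⟩ := ex_y (E := E) r
  obtain ⟨v, hv, e3⟩ := half_of H' hv r1
  refine N Q (some r v hv) (fun τ t => ((X_eq_iff (h₂ := hv)).1 (u X _ _ ?_ (norm_pos_iff.1 r4) ?_
    r5 ?_ r1)).resolve_right fun e => N0 ?_) (by rw [hQ, two_nsmul, e3, ← e1, add_sub_cancel])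
  · exact (map_ne_zero τ).2 (norm_pos_iff.1 r4)
  · rwa [← map_inv₀, iso τ t]
  · rw [← map_ps, ← map_ph, ← r1, map_mul, (some.inj (f2 τ t)).1]
  · have := f2 τ t
    rw [← e3, map_add, show mp E τ (some r v hv) = _ from e, ← neg_add, e3] at this
    rw [← sub_add_cancel (some x y H) (some z (w z) (hw z)), e1]
    exact add_mem (alg_two ι (by rw [two_nsmul, add_eq_zero_iff_neg_eq.2 this]; exact zero_mem _))
      ⟨Q, hQ⟩

theorem two_pow (k : ℕ) {R : Pn E Ω} (h : Fx Γ R) : ∃ Q T, Fx Γ T ∧ R = mp E ι Q + 2 ^ k • T := by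
  induction k with
  | zero => exact ⟨0, R, h, by simp⟩
  | succ k i =>
    obtain ⟨Q, T, a, rfl⟩ := i
    obtain ⟨Q', T, c, rfl⟩ := two ι iso den a
    exact ⟨Q + 2 ^ k • Q', T, c, by rw [map_add, map_nsmul, smul_add, add_assoc, pow_succ, mul_smul]⟩

/-- **local coboundaries of exponent `2 ^ k` come from algebraic points** -/
theorem desc {k : ℕ} {R : Pn E Ω} (h : Fx Γ (2 ^ k • R)) :
    ∃ Q, ∀ τ ∈ Γ, mp E τ (mp E ι Q) - mp E ι Q = mp E τ R - R := by
  obtain ⟨Q, T, a, e⟩ := two_pow ι iso den k h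
  obtain ⟨Q, m⟩ := alg ι (k := k) (R := R - T) ⟨Q, by rw [smul_sub, e, add_sub_cancel_right]⟩
  exact ⟨Q, fun τ t => by rw [m, map_sub, a τ t, sub_sub_sub_cancel_right]⟩

end

end Vale.Agent.P014T.Sh
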